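import Mathlib
import Vale.Agent.P130.Main
import Vale.Agent.P130.Spectrum

/-!
# Simple Lebesgue spectrum excludes independent factors
-/

open MeasureTheory ProbabilityTheory

namespace Vale.Agent.Results.P130.NoIndependentFactors

/-- If `T` has Lebesgue spectrum of multiplicity `k`, then any `j ≥ 1` jointly independent
nontrivial factors satisfy `2 ^ j ≤ k + j`. In particular (`k = 1`: simple Lebesgue spectrum) there
are no two independent nontrivial factors, and `T` is not a product of two nontrivial maps. -/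
theorem result :
    (∀ (Ω : Type) (mΩ : MeasurableSpace Ω) (μ : Measure[mΩ] Ω) [IsProbabilityMeasure μ] (T : Ω → Ω)
      (k : ℕ), Vale.Agent.P130.HasLebesgueSpectrum μ T k →
      ∀ (j : ℕ) (m : Fin j → MeasurableSpace Ω), 0 < j → (∀ p, m p ≤ mΩ) →
      (∀ p, Measurable[m p, m p] T) →
      (∀ p, ∃ s, MeasurableSet[m p] s ∧ μ s ≠ 0 ∧ μ s ≠ 1) →
      iIndep m μ → 2 ^ j ≤ k + j) ∧
    (∀ (X Y : Type) [MeasurableSpace X] [MeasurableSpace Y] (α : Measure X) (β : Measure Y)
      [IsProbabilityMeasure α] [IsProbabilityMeasure β] (T₁ : X → X) (T₂ : Y → Y),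
      MeasurePreserving T₁ α α → MeasurePreserving T₂ β β →
      (∃ s, MeasurableSet s ∧ α s ≠ 0 ∧ α s ≠ 1) → (∃ s, MeasurableSet s ∧ β s ≠ 0 ∧ β s ≠ 1) →
      ¬ Vale.Agent.P130.HasLebesgueSpectrum (α.prod β) (Prod.map T₁ T₂) 1) := by
  have main : ∀ (Ω : Type) (mΩ : MeasurableSpace Ω) (μ : Measure[mΩ] Ω) [IsProbabilityMeasure μ]
      (T : Ω → Ω) (k : ℕ), Vale.Agent.P130.HasLebesgueSpectrum μ T k →
      ∀ (j : ℕ) (m : Fin j → MeasurableSpace Ω), 0 < j → (∀ p, m p ≤ mΩ) →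
      (∀ p, Measurable[m p, m p] T) →
      (∀ p, ∃ s, MeasurableSet[m p] s ∧ μ s ≠ 0 ∧ μ s ≠ 1) →
      iIndep m μ → 2 ^ j ≤ k + j := by
    intro Ω mΩ μ _ T k ⟨hT, b, hb0, hb⟩ j m hj hm hTm hne hi
    have : Nonempty (Fin j) := ⟨⟨0, hj⟩⟩
    simpa using Vale.Agent.P130.two_pow_card_le (J := Fin j)
      ({ mp := hT, b := b, b0 := hb0, shift := hb } : Vale.Agent.P130.Sys μ T (Fin k)) hm hTm hi hne
  refine ⟨main, ?_⟩
  intro X Y mX mY α β _ _ T₁ T₂ h₁ h₂ hs ht hL
  obtain ⟨s, hs, hs0, hs1⟩ := hs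
  obtain ⟨t, ht, ht0, ht1⟩ := ht
  let m : Fin 2 → MeasurableSpace (X × Y) := ![mX.comap Prod.fst, mY.comap Prod.snd]
  have hle : ∀ p, m p ≤ (inferInstance : MeasurableSpace (X × Y)) := by
    intro p; fin_cases p
    · exact measurable_fst.comap_le
    · exact measurable_snd.comap_le
  have hTm : ∀ p, Measurable[m p, m p] (Prod.map T₁ T₂) := by
    intro p; fin_cases p
    · rintro _ ⟨u, hu, rfl⟩; exact ⟨T₁ ⁻¹' u, h₁.measurable hu, rfl⟩
    · rintro _ ⟨u, hu, rfl⟩; exact ⟨T₂ ⁻¹' u, h₂.measurable hu, rfl⟩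
  have hne : ∀ p, ∃ u, MeasurableSet[m p] u ∧ α.prod β u ≠ 0 ∧ α.prod β u ≠ 1 := by
    intro p; fin_cases p
    · refine ⟨Prod.fst ⁻¹' s, ⟨s, hs, rfl⟩, ?_⟩
      rw [← Set.prod_univ, Measure.prod_prod, measure_univ, mul_one]; exact ⟨hs0, hs1⟩
    · refine ⟨Prod.snd ⁻¹' t, ⟨t, ht, rfl⟩, ?_⟩
      rw [← Set.univ_prod, Measure.prod_prod, measure_univ, one_mul]; exact ⟨ht0, ht1⟩
  have hi : iIndep m (α.prod β) := by
    rw [iIndep_iff]
    intro u f hf
    have all : ∀ F : Fin 2 → Set (X × Y), (∀ i, MeasurableSet[m i] (F i)) →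
        α.prod β (F 0 ∩ F 1) = α.prod β (F 0) * α.prod β (F 1) := by
      intro F hF
      obtain ⟨a, ha, ha'⟩ := hF 0
      obtain ⟨c, hc, hc'⟩ := hF 1
      rw [← ha', ← hc', ← Set.prod_eq, Measure.prod_prod, ← Set.prod_univ, ← Set.univ_prod,
        Measure.prod_prod, Measure.prod_prod, measure_univ, measure_univ, mul_one, one_mul]
    classical
    let F : Fin 2 → Set (X × Y) := fun i => if i ∈ u then f i else Set.univ
    have hF : ∀ i, MeasurableSet[m i] (F i) := fun i => by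
      by_cases h : i ∈ u
      · simp only [F, if_pos h]; exact hf i h
      · simp only [F, if_neg h]; exact MeasurableSet.univ
    have h1 : (⋂ i ∈ u, f i) = F 0 ∩ F 1 := by
      ext x
      simp only [Set.mem_iInter, Set.mem_inter_iff, F]
      constructor
      · intro h
        constructor <;> split_ifs with h' <;> first | exact h _ h' | trivial
      · rintro ⟨h0, h1⟩ i hi
        fin_cases i
        · simpa [show (0 : Fin 2) ∈ u from hi] using h0
        · simpa [show (1 : Fin 2) ∈ u from hi] using h1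
    have h2 : ∏ i ∈ u, α.prod β (f i) = ∏ i : Fin 2, α.prod β (F i) := by
      rw [← Finset.prod_subset (Finset.subset_univ u) (fun i _ hi => by simp [F, hi])]
      exact Finset.prod_congr rfl fun i hi => by simp [F, hi]
    rw [h1, h2, Fin.prod_univ_two]
    exact all F hF
  have := main (X × Y) _ (α.prod β) (Prod.map T₁ T₂) 1 hL 2 m two_pos hle hTm hne hi
  omega

end Vale.Agent.Results.P130.NoIndependentFactors
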